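import Vale.Agent.P259.H615.Bridge

open CategoryTheory Vale.Agent.P259 StmtB Theta0 Hyp

theorem Vale.Agent.Results.P259.HomotopyHypothesisStrong.result :
    (∃ A, IsCoherator A) ∧
    (∀ {Q : Type} [SmallCategory Q] (J : Glob Q), IsCoherator ⟨Q, J⟩ →
      (∃ F, IsDisc J F) ∧ (∃ id, IsIdent J id) ∧ ∀ id, IsIdent J id →
      IsSemiModel (gwe J id) (gfib J) (gtriv J) ∧
      ∀ F, IsDisc J F →
      LocEq (F.op ⋙ coyoneda).flip (Gl J yoneda)
        (we (fun ι {n} => yoneda.map (J.s (.face ι n.lt_succ_self))) fun {n} =>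
          yoneda.map (id n)) ∧
      IsGpdEquiv J id (F.op ⋙ coyoneda).flip wheT serre htype) ∧
    ∀ {Q Q' : Type} [SmallCategory Q] [SmallCategory Q'] (J : Glob Q) (J' : Glob Q'),
      IsCoherator ⟨Q, J⟩ → IsCoherator ⟨Q', J'⟩ → (∃ T, IsMor J J' T) ∧
        ∀ T, IsMor J J' T → RestrEquiv J J' T :=
  final
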