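import Vale.Agent.P259.H413.Main

open CategoryTheory Vale.Agent.P259 StmtB Theta0 Hyp

/-- The Grothendieck homotopy hypothesis, second strong form. Coherators exist. For every
coherator and every disc functor `F`, the fundamental `∞`-groupoid functor `Hom(F -, Y)` induces an
equivalence between the homotopy categories (Q1), it detects weak homotopy equivalences, every
`∞`-groupoid is the target of a trivial fibration whose source is weakly equivalent to the
fundamental `∞`-groupoid of a space, and spaces and maps are determined by their fundamental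
`∞`-groupoids. The same holds for the restriction along every morphism between two coherators
(and such a morphism exists), which is also an equivalence on the localized categories of diagrams
of every small shape. -/
theorem Vale.Agent.Results.P259.SpaceModels.result :
    (∃ A, IsCoherator A) ∧
    (∀ {Q : Type} [SmallCategory Q] (J : Glob Q), IsCoherator ⟨Q, J⟩ →
      (∃ F, IsDisc J F) ∧ (∃ id, IsIdent J id) ∧ ∀ F, IsDisc J F → ∀ id, IsIdent J id →
      LocEq (F.op ⋙ coyoneda).flip (Gl J yoneda)
        (we (fun ι {n} => yoneda.map (J.s (.face ι n.lt_succ_self))) fun {n} =>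
          yoneda.map (id n)) ∧
      ∃ P : CompactlyGenerated.{0, 0} ⥤ Gpd J, P ⋙ ι J = (F.op ⋙ coyoneda).flip ∧
        IsModelledBy P wheT (gwe J id) (gtriv J)) ∧
    ∀ {Q Q' : Type} [SmallCategory Q] [SmallCategory Q'] (J : Glob Q) (J' : Glob Q'),
      IsCoherator ⟨Q, J⟩ → IsCoherator ⟨Q', J'⟩ → (∃ T, IsMor J J' T) ∧ ∀ T, IsMor J J' T →
        (∀ F, IsDisc J' F → IsDisc J (T ⋙ F)) ∧
        ∀ id, IsIdent J id → ∀ id', IsIdent J' id' →
        ∃ R : Gpd J' ⥤ Gpd J, R ⋙ ι J = ι J' ⋙ (Functor.whiskeringLeft _ _ _).obj T.op ∧
          HoEq R (gwe J' id') (gwe J id) ∧ IsModelledBy R (gwe J' id') (gwe J id) (gtriv J) :=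
  final_models
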